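import Crest.Agent.X262.Pui27.Hn
import Crest.Agent.X262.Alg44.Defs

/-!
# Row 262, G4/ALG (helper27): the field of Puiseux series over `K` as a field over `ℂ`

* `PE K` : Puiseux series over `K`, an algebra over `ℂ` through `kap : ℂ ≃ PuF ℂ`;
* `hs`, `ie e he`, `th e he`, `pm φ`, `tq q` (`= t ^ q` as a complex number);
* `red K : Red K (PE K)`, `comap R j` : the reduction;
* `lev_ie`, `lev_th`, `exists_ie` : level lemmas.
-/

set_option autoImplicit false

open HahnSeries (single)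
open scoped PowerSeries

noncomputable section

namespace Crest.Agent.X262.Pui27

open Crest.Agent.X262.Alg44 (Red)

/-- Puiseux series over `K` -/
def PE (K : Type) [Field K] : Type := PuF K

variable {K L M : Type} [Field K] [Field L] [Field M] {e : ℕ}

instance : Field (PE K) := inferInstanceAs (Field (PuF K))

/-- the underlying Hahn series -/
def hs : PE K →+* Hn K := (PuF K).subtype

theorem hs_injective : Function.Injective (hs : PE K → Hn K) := Subtype.val_injective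

theorem hs_mem (x : PE K) : hs x ∈ Pu K := x.2

theorem exists_hs {x : Hn K} (h : x ∈ Pu K) : ∃ y : PE K, hs y = x := ⟨⟨x, h⟩, rfl⟩

/-- functoriality -/
def pmR (f : K →+* L) : PE K →+* PE L :=
  ((hm f).comp hs).codRestrict (PuF L) fun x => hm_mem_Pu f (hs_mem x)

theorem hs_pmR (f : K →+* L) (x : PE K) : hs (pmR f x) = hm f (hs x) := rfl

variable (e) in
/-- power series in `t ^ (1 / e)` -/
def ie (he : e ≠ 0) : K⟦X⟧ →+* PE K := (pu K e he).codRestrict (PuF K) (pu_mem_Pu he)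

theorem hs_ie (he : e ≠ 0) (f : K⟦X⟧) : hs (ie e he f) = pu K e he f := rfl

theorem ie_injective (he : e ≠ 0) : Function.Injective (ie e he : K⟦X⟧ → PE K) :=
  fun _ _ h => pu_injective he (congrArg hs h)

theorem ie_expand (he : e ≠ 0) {a : ℕ} (ha : a ≠ 0) (f : K⟦X⟧) :
    ie (a * e) (mul_ne_zero ha he) (PowerSeries.expand a ha f) = ie e he f :=
  hs_injective (pu_expand he ha f)

theorem ie_exp (he : e ≠ 0) {k : ℕ} (hk : k ≠ 0) (f : K⟦X⟧) :
    ie (e * k) (mul_ne_zero he hk) (PowerSeries.expand k hk f) = ie e he f := by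
  simpa only [mul_comm k e] using ie_expand he hk f

theorem range_ie_le (he : e ≠ 0) {e' : ℕ} (he' : e' ≠ 0) (h : e ∣ e') :
    (ie e he : K⟦X⟧ →+* PE K).range ≤ (ie e' he').range := by
  obtain ⟨k, rfl⟩ := h
  rintro _ ⟨f, rfl⟩
  exact ⟨_, ie_exp he (right_ne_zero_of_mul he') f⟩

theorem ie_expand_one (he : e ≠ 0) (f : K⟦X⟧) :
    ie e he (PowerSeries.expand e he f) = ie 1 one_ne_zero f := by
  simpa only [mul_one] using ie_expand one_ne_zero he f

theorem pmR_ie (φ : K →+* L) (he : e ≠ 0) (f : K⟦X⟧) :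
    pmR φ (ie e he f) = ie e he (PowerSeries.map φ f) := hs_injective (hm_pu he φ f)

/-- a complex number as a Hahn series -/
def kp : ℂ →+* Hn ℂ := (PuF ℂ).subtype.comp kap.toRingHom

theorem kp_injective : Function.Injective kp := kp.injective

theorem kp_mem (c : ℂ) : kp c ∈ Pu ℂ := (kap c).2

theorem exists_kp {x : Hn ℂ} (h : x ∈ Pu ℂ) : ∃ c, kp c = x :=
  ⟨kap.symm ⟨x, h⟩, congrArg Subtype.val (kap.apply_symm_apply _)⟩

variable (e) in
/-- a power series in `t ^ (1 / e)` as a complex number -/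
def th (he : e ≠ 0) : ℂ⟦X⟧ →+* ℂ :=
  kap.symm.toRingHom.comp ((pu ℂ e he).codRestrict (PuF ℂ) (pu_mem_Pu he))

theorem kp_th (he : e ≠ 0) (g : ℂ⟦X⟧) : kp (th e he g) = pu ℂ e he g :=
  congrArg Subtype.val (kap.apply_symm_apply _)

theorem th_injective (he : e ≠ 0) : Function.Injective (th e he) := fun f g h =>
  pu_injective he (by rw [← kp_th, h, kp_th])

theorem th_expand (he : e ≠ 0) {a : ℕ} (ha : a ≠ 0) (f : ℂ⟦X⟧) :
    th (a * e) (mul_ne_zero ha he) (PowerSeries.expand a ha f) = th e he f :=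
  kp_injective (by rw [kp_th, kp_th, pu_expand])

theorem th_exp (he : e ≠ 0) {k : ℕ} (hk : k ≠ 0) (f : ℂ⟦X⟧) :
    th (e * k) (mul_ne_zero he hk) (PowerSeries.expand k hk f) = th e he f := by
  simpa only [mul_comm k e] using th_expand he hk f

theorem range_th_le (he : e ≠ 0) {e' : ℕ} (he' : e' ≠ 0) (h : e ∣ e') :
    (th e he).range ≤ (th e' he').range := by
  obtain ⟨k, rfl⟩ := h
  rintro _ ⟨f, rfl⟩
  exact ⟨_, th_exp he (right_ne_zero_of_mul he') f⟩

/-- `t ^ q` as a complex number -/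
def tq (q : ℚ) : ℂ := (exists_kp (single_mem_Pu q 1)).choose

theorem kp_tq (q : ℚ) : kp (tq q) = single q 1 := (exists_kp (single_mem_Pu q 1)).choose_spec

theorem tq_ne_zero (q : ℚ) : tq q ≠ 0 := fun h => tq_ne q (by rw [← kp_tq, h, map_zero])

theorem tq_add (p q : ℚ) : tq (p + q) = tq p * tq q :=
  kp_injective (by rw [map_mul, kp_tq, kp_tq, kp_tq, HahnSeries.single_mul_single, one_mul])

theorem tq_zero : tq 0 = 1 := kp_injective (by rw [kp_tq, kp.map_one, HahnSeries.single_zero_one])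

theorem th_X (he : e ≠ 0) : th e he PowerSeries.X = tq (1 / e) :=
  kp_injective (by rw [kp_th, kp_tq, pu_X])

theorem th_X_pow (he : e ≠ 0) (n : ℕ) : th e he (PowerSeries.X ^ n) = tq (n / e) :=
  kp_injective (by rw [kp_th, kp_tq, PowerSeries.X_pow_eq, pu_monomial])

/-- the level lemma for constants -/
theorem lev_th {ι : Type*} [Finite ι] {c : ι → ℂ} (h : ∀ i, kp (c i) ∈ O ℂ) :
    ∃ (e : ℕ) (he : e ≠ 0) (g : ι → ℂ⟦X⟧), ∀ i, th e he (g i) = c i := by
  obtain ⟨e, he, g, hg⟩ := lev (fun i => kp_mem (c i)) h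
  exact ⟨e, he, g, fun i => kp_injective (by rw [kp_th, hg])⟩

/-- the level lemma -/
theorem lev_ie {ι : Type*} [Finite ι] {x : ι → PE K} (h : ∀ i, hs (x i) ∈ O K) :
    ∃ (e : ℕ) (he : e ≠ 0) (f : ι → K⟦X⟧), ∀ i, ie e he (f i) = x i := by
  obtain ⟨e, he, f, hf⟩ := lev (fun i => hs_mem (x i)) h
  exact ⟨e, he, f, fun i => hs_injective (hf i)⟩

theorem exists_ie (he : e ≠ 0) {x : PE K} (h : hs x ∈ Lv K e) (h0 : hs x ∈ O K) :
    ∃ f, ie e he f = x := (exists_pu he h h0).imp fun _ hf => hs_injective hf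

variable [Algebra ℂ K] [Algebra ℂ L] [Algebra ℂ M]

instance : Algebra ℂ (PE K) :=
  ((pmR (algebraMap ℂ K)).comp (kap.toRingHom : ℂ →+* PuF ℂ)).toAlgebra

theorem hs_alg (c : ℂ) : hs (algebraMap ℂ (PE K) c) = hm (algebraMap ℂ K) (kp c) := rfl

theorem hs_smul (c : ℂ) (x : PE K) : hs (c • x) = hm (algebraMap ℂ K) (kp c) * hs x := by
  rw [Algebra.smul_def, map_mul, hs_alg]

theorem hs_tq (q : ℚ) : hs (algebraMap ℂ (PE K) (tq q)) = single q 1 := by
  rw [hs_alg, kp_tq, hm_single, map_one]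

theorem hs_tq_smul (q : ℚ) (x : PE K) : hs (tq q • x) = single q 1 * hs x := by
  rw [Algebra.smul_def, map_mul, hs_tq]

theorem alg_th (he : e ≠ 0) (g : ℂ⟦X⟧) :
    algebraMap ℂ (PE K) (th e he g) = ie e he (PowerSeries.map (algebraMap ℂ K) g) :=
  hs_injective (by rw [hs_alg, kp_th, hm_pu, hs_ie])

theorem ie_map (he : e ≠ 0) (g : ℂ⟦X⟧) :
    ie e he (PowerSeries.map (algebraMap ℂ K) g) = algebraMap ℂ (PE K) (th e he g) :=
  (alg_th he g).symm

theorem ie_X (he : e ≠ 0) : ie e he PowerSeries.X = algebraMap ℂ (PE K) (tq (1 / e)) := by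
  rw [← th_X he, alg_th, PowerSeries.map_X]

theorem ie_smul (he : e ≠ 0) (g : ℂ⟦X⟧) (f : K⟦X⟧) : ie e he (g • f) = th e he g • ie e he f := by
  rw [Algebra.smul_def (th e he g), alg_th, ← map_mul]
  exact congrArg _ (Algebra.smul_def g f)

theorem alg_mem_O {c : ℂ} : hs (algebraMap ℂ (PE K) c) ∈ O K ↔ kp c ∈ O ℂ :=
  ⟨mem_O_of_hm (algebraMap ℂ K).injective, hm_mem_O _⟩

/-- functoriality -/
def pm (φ : K →ₐ[ℂ] L) : PE K →ₐ[ℂ] PE L :=
  ⟨pmR φ, fun c => hs_injective (by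
    ext q
    exact φ.commutes _)⟩

theorem hs_pm (φ : K →ₐ[ℂ] L) (x : PE K) : hs (pm φ x) = hm (φ : K →+* L) (hs x) := rfl

theorem coeff_pm (φ : K →ₐ[ℂ] L) (x : PE K) (q : ℚ) :
    (hs (pm φ x)).coeff q = φ ((hs x).coeff q) := rfl

theorem pm_ie (φ : K →ₐ[ℂ] L) (he : e ≠ 0) (f : K⟦X⟧) :
    pm φ (ie e he f) = ie e he (PowerSeries.map (φ : K →+* L) f) := pmR_ie _ he f

theorem pm_pm (ψ : L →ₐ[ℂ] M) (φ : K →ₐ[ℂ] L) (x : PE K) :
    pm ψ (pm φ x) = pm (ψ.comp φ) x := rfl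

theorem pm_id (x : PE K) : pm (AlgHom.id ℂ K) x = x := rfl

/-- linear maps act on the coefficients -/
theorem map_hm_mul (φ : K →ₗ[ℂ] L) (c : Hn ℂ) (x : Hn K) :
    (hm (algebraMap ℂ K) c * x).map φ = hm (algebraMap ℂ L) c * x.map φ := by
  ext q
  have h1 : ∀ (N : Type) [Field N] [Algebra ℂ N], (hm (algebraMap ℂ N) c).support ⊆ c.support :=
    fun N _ _ p hp h => hp (by rw [coeff_hm, h, map_zero])
  have h2 : (x.map φ).support ⊆ x.support := fun p hp h =>
    hp (by rw [HahnSeries.map_coeff, h, map_zero])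
  rw [HahnSeries.map_coeff, HahnSeries.coeff_mul_left' c.isPWO_support (h1 K), map_sum,
    HahnSeries.coeff_mul_left' c.isPWO_support (h1 L)]
  refine ((Finset.sum_subset (fun p hp => ?_) fun p hp h => ?_).trans
    (Finset.sum_congr rfl fun p _ => ?_)).symm
  · obtain ⟨h3, h4, h5⟩ := Finset.mem_antidiagonal.1 hp
    exact Finset.mem_antidiagonal.2 ⟨h3, h2 h4, h5⟩
  · obtain ⟨h3, -, h5⟩ := Finset.mem_antidiagonal.1 hp
    rw [not_not.1 fun h6 => h (Finset.mem_antidiagonal.2 ⟨h3, h6, h5⟩), mul_zero]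
  · rw [coeff_hm, coeff_hm, HahnSeries.map_coeff, ← Algebra.smul_def, ← Algebra.smul_def, map_smul]

/-- a linear map acts on the coefficients -/
def lm0 (φ : K →ₗ[ℂ] L) (x : PE K) : PE L :=
  ⟨(hs x).map φ, (hs_mem x).imp fun _ h => ⟨h.1, map_mem_Sp φ h.2⟩⟩

theorem hs_lm0 (φ : K →ₗ[ℂ] L) (x : PE K) : hs (lm0 φ x) = (hs x).map φ := rfl

/-- a linear map acts on the coefficients -/
def lmap (φ : K →ₗ[ℂ] L) : PE K →ₗ[ℂ] PE L where
  toFun := lm0 φ
  map_add' x y := hs_injective (by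
    ext q
    exact φ.map_add _ _)
  map_smul' c x := hs_injective (by
    rw [RingHom.id_apply, hs_smul, hs_lm0, hs_lm0, hs_smul, map_hm_mul])

theorem coeff_lmap (φ : K →ₗ[ℂ] L) (x : PE K) (q : ℚ) :
    (hs (lmap φ x)).coeff q = φ ((hs x).coeff q) := rfl

/-- the field of Puiseux series over `ℂ` is `ℂ` -/
theorem alg_surj : Function.Surjective (algebraMap ℂ (PE ℂ)) := fun x =>
  (exists_kp (hs_mem x)).imp fun _ h => hs_injective (by rw [hs_alg, h]; rfl)

/-- normalisation of a finite family -/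
theorem exists_tq {ι : Type*} [Finite ι] {x : ι → PE K} (h : ∃ i, x i ≠ 0) :
    ∃ q : ℚ, (∀ i, hs (tq q • x i) ∈ O K) ∧ ∃ i, (hs (tq q • x i)).coeff 0 ≠ 0 := by
  simpa only [hs_tq_smul] using exists_nrm (x := fun i => hs (x i))
    (h.imp fun i hi h1 => hi (hs_injective (h1.trans (map_zero _).symm)))

theorem indep_of_coeff {ι : Type*} [Fintype ι] {v : ι → PE K} (h0 : ∀ i, hs (v i) ∈ O K)
    (h : LinearIndependent ℂ fun i => (hs (v i)).coeff 0) : LinearIndependent ℂ v := by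
  refine Fintype.linearIndependent_iff.2 fun c hc => by_contra fun h1 => ?_
  obtain ⟨q, h2, i, h3⟩ := exists_nrm (x := fun i => kp (c i))
    ((not_forall.1 h1).imp fun i hi => (map_ne_zero kp).2 hi)
  refine h3 (Fintype.linearIndependent_iff.1 h (fun i => (single q 1 * kp (c i)).coeff 0) ?_ i)
  have h4 := congrArg (fun x => (hs (tq q • x)).coeff 0) hc
  simp only [smul_zero, map_zero, HahnSeries.coeff_zero, Finset.smul_sum, map_sum, smul_smul,
    HahnSeries.coeff_sum] at h4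
  refine (Finset.sum_congr rfl fun j _ => ?_).trans h4
  rw [hs_smul, map_mul, kp_tq, coeff_zero_mul (hm_mem_O _ (h2 j)) (h0 j), coeff_hm,
    Algebra.smul_def]

/-- **Gauss elimination** -/
theorem exists_fam (V : Submodule ℂ (PE K)) [Module.Finite ℂ V] (k : ℕ)
    (hk : k ≤ Module.finrank ℂ V) : ∃ v : Fin k → PE K, (∀ i, v i ∈ V) ∧ (∀ i, hs (v i) ∈ O K) ∧
      LinearIndependent ℂ fun i => (hs (v i)).coeff 0 := by
  induction k with
  | zero => exact ⟨Fin.elim0, fun i => i.elim0, fun i => i.elim0, linearIndependent_empty_type⟩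
  | succ k ih =>
    obtain ⟨v, h1, h2, h3⟩ := ih (Nat.le_of_succ_le hk)
    obtain ⟨φ, hφ⟩ := LinearMap.exists_leftInverse_of_injective
      (Fintype.linearCombination ℂ fun i => (hs (v i)).coeff 0)
      (LinearMap.ker_eq_bot.2 (linearIndependent_iff_injective_fintypeLinearCombination.1 h3))
    let ε : ℂ ≃ₗ[ℂ] PE ℂ := LinearEquiv.ofBijective (Algebra.linearMap ℂ (PE ℂ))
      ⟨(algebraMap ℂ (PE ℂ)).injective, alg_surj⟩
    let Φ : V →ₗ[ℂ] Fin k → ℂ := LinearMap.pi fun i =>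
      ε.symm.toLinearMap ∘ₗ lmap (LinearMap.proj i ∘ₗ φ) ∘ₗ V.subtype
    obtain ⟨u, hu, h0⟩ := Submodule.exists_mem_ne_zero_of_ne_bot
      (LinearMap.ker_ne_bot_of_finrank_lt (f := Φ) (by simpa using hk))
    have h4 : ∀ q, φ ((hs u.1).coeff q) = 0 := fun q => funext fun i => by
      have h5 : lmap (LinearMap.proj i ∘ₗ φ) u.1 = 0 :=
        ε.symm.map_eq_zero_iff.1 (congrFun (LinearMap.mem_ker.1 hu) i)
      exact (coeff_lmap (LinearMap.proj i ∘ₗ φ) u.1 q).symm.trans (by rw [h5, map_zero, HahnSeries.coeff_zero])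
    obtain ⟨q, h5, -, h6⟩ := exists_tq (x := fun _ : Unit => u.1) ⟨(), fun h => h0 (Subtype.ext h)⟩
    refine ⟨Fin.cons (tq q • u.1) v, fun i => Fin.cases (V.smul_mem _ u.2) h1 i,
      fun i => Fin.cases (h5 ()) h2 i, ?_⟩
    rw [show (fun i => (hs ((Fin.cons (tq q • u.1) v : Fin (k + 1) → PE K) i)).coeff 0) =
      Fin.cons ((hs (tq q • u.1)).coeff 0) fun i => (hs (v i)).coeff 0 from
        funext fun i => Fin.cases rfl (fun _ => rfl) i]
    refine linearIndependent_finCons.2 ⟨h3, fun h => h6 ?_⟩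
    rw [← Fintype.range_linearCombination] at h
    obtain ⟨c, hc⟩ := h
    have h7 : c = 0 := by
      rw [← LinearMap.id_apply (R := ℂ) c, ← hφ, LinearMap.comp_apply, hc, hs_tq_smul,
        coeff_zero_single_mul, h4]
    rw [← hc, h7, map_zero]

variable (K) in
/-- **the reduction** -/
def red : Red K (PE K) where
  O := (O K).comap hs
  r x := (hs x).coeff 0
  r_add _ _ := rfl
  r_mul hf hg := coeff_zero_mul hf hg
  r_one := (rd K).map_one
  inv_mem {f} _ h := Subring.mem_comap.2 (map_inv₀ (hs (K := K)) f ▸ inv_mem_O h)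
  val c := by
    simpa only [Subring.mem_comap, map_inv₀] using mem_O_or_inv (hs (algebraMap ℂ (PE K) c))
  z c := (kp c).coeff 0
  r_cst _ := rfl
  z_sur c₀ := (exists_kp (single_mem_Pu 0 c₀)).imp fun c (h : kp c = _) =>
    ⟨alg_mem_O.2 (h ▸ single_mem_O le_rfl c₀), by rw [h, HahnSeries.coeff_single_same]⟩
  ge V _ := by
    obtain ⟨v, h1, h2, h3⟩ := exists_fam V _ le_rfl
    refine ⟨_, v, h2, Submodule.eq_of_le_of_finrank_eq
      (Submodule.span_le.2 (Set.range_subset_iff.2 h1)) ?_, h3⟩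
    rw [finrank_span_eq_card (indep_of_coeff h2 h3), Fintype.card_fin]

theorem mem_red_O {x : PE K} : x ∈ (red K).O ↔ hs x ∈ O K := Iff.rfl

theorem red_r (x : PE K) : (red K).r x = (hs x).coeff 0 := rfl

theorem red_z (c : ℂ) : (red K).z c = (kp c).coeff 0 := rfl

theorem mem_red_o {c : ℂ} : c ∈ (red K).o ↔ kp c ∈ O ℂ := alg_mem_O

theorem ie_mem (he : e ≠ 0) (f : K⟦X⟧) : ie e he f ∈ (red K).O := pu_mem_O he f

theorem r_ie (he : e ≠ 0) (f : K⟦X⟧) : (red K).r (ie e he f) = PowerSeries.constantCoeff f :=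
  coeff_zero_pu he f

theorem th_mem (he : e ≠ 0) (g : ℂ⟦X⟧) : th e he g ∈ (red K).o :=
  mem_red_o.2 (kp_th he g ▸ pu_mem_O he g)

theorem z_th (he : e ≠ 0) (g : ℂ⟦X⟧) : (red K).z (th e he g) = PowerSeries.constantCoeff g := by
  rw [red_z, kp_th, coeff_zero_pu]

theorem pm_mem (φ : K →ₐ[ℂ] L) {x : PE K} : pm φ x ∈ (red L).O ↔ x ∈ (red K).O :=
  ⟨mem_O_of_hm (φ : K →+* L).injective, hm_mem_O _⟩

theorem r_pm (φ : K →ₐ[ℂ] L) (x : PE K) : (red L).r (pm φ x) = φ ((red K).r x) := rfl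

theorem lev_red {ι : Type*} [Finite ι] {x : ι → PE K} (h : ∀ i, x i ∈ (red K).O) :
    ∃ (e : ℕ) (he : e ≠ 0) (f : ι → K⟦X⟧), ∀ i, ie e he (f i) = x i := lev_ie h

theorem lev_red_o {ι : Type*} [Finite ι] {c : ι → ℂ} (h : ∀ i, c i ∈ (red K).o) :
    ∃ (e : ℕ) (he : e ≠ 0) (g : ι → ℂ⟦X⟧), ∀ i, th e he (g i) = c i :=
  lev_th fun i => mem_red_o.1 (h i)

theorem lev_one {x : PE K} (h : x ∈ (red K).O) : ∃ (e : ℕ) (he : e ≠ 0) (f : K⟦X⟧), ie e he f = x :=
  let ⟨e, he, f, hf⟩ := lev_red (x := fun _ : Unit => x) fun _ => h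
  ⟨e, he, f (), hf ()⟩

theorem lev_one_o {c : ℂ} (h : c ∈ (red K).o) : ∃ (e : ℕ) (he : e ≠ 0) (g : ℂ⟦X⟧), th e he g = c :=
  let ⟨e, he, g, hg⟩ := lev_red_o (c := fun _ : Unit => c) fun _ => h
  ⟨e, he, g (), hg ()⟩

end Crest.Agent.X262.Pui27
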