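import Crest.Agent.R013.Puis_702

/-!
# Row 262, G4/ALG (helper27): Hahn series with rational exponents, Puiseux series

* `Hn A`, `hm f`, `pu A e he` (`X ↦ t ^ (1 / e)`), `tq q = t ^ q`;
* `Lv A e`, `Pu A` : series with exponents in `(1 / e) ℤ`, Puiseux series; `O A` : order `≥ 0`;
* `lev` : the level lemma; `exists_nrm` : normalisation of a finite family;
* `PuF K` : the field of Puiseux series; it is algebraically closed; `kap : ℂ ≃+* PuF ℂ`.
-/

set_option autoImplicit false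

open HahnSeries (single)
open scoped PowerSeries

noncomputable section

namespace Crest.Agent.X262.Pui27

/-- Hahn series with rational exponents -/
abbrev Hn (A : Type*) [Zero A] := HahnSeries ℚ A

section Ring

variable {A B D : Type*} [CommRing A] [CommRing B] [CommRing D] {x y : Hn A} {e : ℕ} {q : ℚ}

/-- a ring homomorphism acts on the coefficients -/
def hm (f : A →+* B) : Hn A →+* Hn B where
  toFun x := x.map f
  map_one' := HahnSeries.map_one f.toMonoidWithZeroHom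
  map_mul' _ _ := HahnSeries.map_mul f.toNonUnitalRingHom
  map_zero' := HahnSeries.map_zero f.toAddMonoidHom.toZeroHom
  map_add' _ _ := HahnSeries.map_add f.toAddMonoidHom

@[simp] theorem coeff_hm (f : A →+* B) (x : Hn A) (q : ℚ) : (hm f x).coeff q = f (x.coeff q) := rfl

theorem hm_hm (g : B →+* D) (f : A →+* B) (x : Hn A) : hm g (hm f x) = hm (g.comp f) x := rfl

theorem hm_injective {f : A →+* B} (hf : Function.Injective f) : Function.Injective (hm f) :=
  fun _ _ h => HahnSeries.ext (funext fun q => hf (congrArg (·.coeff q) h))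

@[simp] theorem hm_single (f : A →+* B) (q : ℚ) (a : A) : hm f (single q a) = single q (f a) :=
  HahnSeries.map_single f.toAddMonoidHom.toZeroHom

/-- division of the exponents -/
def dv (e : ℕ) : ℕ →+ ℚ := ⟨⟨fun n => n / e, by simp⟩, fun m n => by push_cast; ring⟩

theorem dv_le (he : e ≠ 0) (m n : ℕ) : dv e m ≤ dv e n ↔ m ≤ n :=
  (div_le_div_iff_of_pos_right (Nat.cast_pos.2 (Nat.pos_of_ne_zero he))).trans Nat.cast_le

theorem dv_inj (he : e ≠ 0) : Function.Injective (dv e) := fun m n h =>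
  le_antisymm ((dv_le he m n).1 h.le) ((dv_le he n m).1 h.ge)

variable (A e) in
/-- power series in `t ^ (1 / e)` -/
def pu (he : e ≠ 0) : A⟦X⟧ →+* Hn A :=
  (HahnSeries.embDomainRingHom (dv e) (dv_inj he) (dv_le he)).comp
    HahnSeries.toPowerSeries.symm.toRingHom

section Pu

variable (he : e ≠ 0) {f : A⟦X⟧}

theorem coeff_pu (f : A⟦X⟧) (n : ℕ) : (pu A e he f).coeff (n / e) = PowerSeries.coeff n f :=
  HahnSeries.embDomain_mk_coeff (dv_inj he) (dv_le he) (a := n)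

theorem coeff_pu_ne (h : (pu A e he f).coeff q ≠ 0) : ∃ n : ℕ, q = n / e := by
  by_contra hc
  exact h (HahnSeries.embDomain_of_notMem_range fun ⟨n, hn⟩ => hc ⟨n, hn.symm⟩)

theorem pu_eq (h1 : ∀ n : ℕ, x.coeff (n / e) = PowerSeries.coeff n f)
    (h2 : ∀ q, x.coeff q ≠ 0 → ∃ n : ℕ, q = n / e) : pu A e he f = x := by
  ext q
  by_cases h : ∃ n : ℕ, q = n / e
  · obtain ⟨n, rfl⟩ := h
    rw [coeff_pu, h1]
  · rw [not_not.1 fun h3 => h (coeff_pu_ne he h3), not_not.1 fun h3 => h (h2 q h3)]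

theorem coeff_zero_pu (f : A⟦X⟧) : (pu A e he f).coeff 0 = PowerSeries.constantCoeff f := by
  simpa using coeff_pu he f 0

theorem pu_injective : Function.Injective (pu A e he) := fun f g h => by
  ext n
  rw [← coeff_pu he, h, coeff_pu]

theorem pu_monomial (n : ℕ) (a : A) :
    pu A e he (PowerSeries.monomial n a) = single (n / e : ℚ) a := by
  refine pu_eq he (fun m => ?_) fun q hq => ⟨n, HahnSeries.eq_of_mem_support_single hq⟩
  rw [PowerSeries.coeff_monomial]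
  split_ifs with h
  · rw [h, HahnSeries.coeff_single_same]
  · exact HahnSeries.coeff_single_of_ne fun h1 => h (dv_inj he h1)

theorem pu_C (a : A) : pu A e he (PowerSeries.C a) = single 0 a := by
  simpa using pu_monomial he 0 a

theorem pu_X : pu A e he PowerSeries.X = single (1 / e : ℚ) 1 := by
  simpa [PowerSeries.X_eq] using pu_monomial he 1 (1 : A)

theorem hm_pu (φ : A →+* B) (f : A⟦X⟧) :
    hm φ (pu A e he f) = pu B e he (PowerSeries.map φ f) :=
  (pu_eq he (fun n => by rw [coeff_hm, coeff_pu, PowerSeries.coeff_map]) fun q hq =>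
    coeff_pu_ne he fun h => hq (by rw [coeff_hm, h, map_zero])).symm

theorem pu_expand {a : ℕ} (ha : a ≠ 0) (f : A⟦X⟧) :
    pu A (a * e) (mul_ne_zero ha he) (PowerSeries.expand a ha f) = pu A e he f := by
  have ha' : (a : ℚ) ≠ 0 := Nat.cast_ne_zero.2 ha
  have key : ∀ m : ℕ, ((a * m : ℕ) : ℚ) / (a * e : ℕ) = m / e := fun m => by
    push_cast
    exact mul_div_mul_left _ _ ha'
  refine pu_eq _ (fun n => ?_) fun q hq => (coeff_pu_ne he hq).elim fun n hn =>
    ⟨a * n, by rw [key, hn]⟩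
  by_cases h : a ∣ n
  · obtain ⟨m, rfl⟩ := h
    rw [key, coeff_pu, PowerSeries.coeff_expand_mul]
  · rw [PowerSeries.coeff_expand_of_not_dvd _ _ _ h]
    by_contra h1
    obtain ⟨m, hm⟩ := coeff_pu_ne he h1
    exact h ⟨m, dv_inj (mul_ne_zero ha he) (hm.trans (key m).symm)⟩

end Pu

theorem exists_of_mul (h : (x * y).coeff q ≠ 0) :
    ∃ a b, x.coeff a ≠ 0 ∧ y.coeff b ≠ 0 ∧ a + b = q := by
  obtain ⟨a, ha, b, hb, h1⟩ := HahnSeries.support_mul_subset h
  exact ⟨a, b, ha, hb, h1⟩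

variable (A) in
/-- series with exponents in an additive submonoid -/
def Sp (S : AddSubmonoid ℚ) : Subring (Hn A) where
  carrier := {x | ∀ q, x.coeff q ≠ 0 → q ∈ S}
  zero_mem' _ h := (h rfl).elim
  one_mem' q h := by
    rw [HahnSeries.eq_of_mem_support_single h]
    exact zero_mem S
  add_mem' {x y} hx hy q h := by
    by_cases h1 : x.coeff q = 0
    · exact hy q (by simpa [h1] using h)
    · exact hx q h1
  neg_mem' hx q h := hx q (by simpa using h)
  mul_mem' hx hy q h := by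
    obtain ⟨a, b, h1, h2, rfl⟩ := exists_of_mul h
    exact add_mem (hx a h1) (hy b h2)

theorem single_mem_Sp {S : AddSubmonoid ℚ} (h : q ∈ S) (a : A) : single q a ∈ Sp A S :=
  fun _ h1 => HahnSeries.eq_of_mem_support_single h1 ▸ h

/-- the exponents of level `e` -/
def lv (e : ℕ) : AddSubmonoid ℚ where
  carrier := {q | ∃ n : ℤ, q * e = n}
  zero_mem' := ⟨0, by simp⟩
  add_mem' := fun ⟨m, hm⟩ ⟨n, hn⟩ => ⟨m + n, by rw [add_mul, hm, hn, Int.cast_add]⟩

variable (A e) in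
/-- series of level `e` -/
def Lv : Subring (Hn A) := Sp A (lv e)

variable (A) in
/-- series of nonnegative order -/
def O : Subring (Hn A) := Sp A (AddSubmonoid.nonneg ℚ)

theorem mem_O : x ∈ O A ↔ ∀ q, q < 0 → x.coeff q = 0 :=
  forall_congr' fun q => not_imp_comm.trans (imp_congr_left (not_le (a := 0) (b := q)))

theorem mem_O_iff : x ∈ O A ↔ 0 ≤ x.order :=
  ⟨fun h => (eq_or_ne x 0).elim (fun h1 => by simp [h1]) fun h1 =>
    h _ (HahnSeries.coeff_order_eq_zero.not.2 h1),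
    fun h _ h1 => h.trans (HahnSeries.order_le_of_coeff_ne_zero h1)⟩

theorem Lv_le {e' : ℕ} (h : e ∣ e') : Lv A e ≤ Lv A e' := fun _ hx q hq => by
  obtain ⟨a, rfl⟩ := h
  obtain ⟨n, hn⟩ := hx q hq
  exact ⟨n * a, by rw [Nat.cast_mul, ← mul_assoc, hn, Int.cast_mul, Int.cast_natCast]⟩

variable (A) in
/-- Puiseux series -/
def Pu : Subring (Hn A) where
  carrier := {x | ∃ e, e ≠ 0 ∧ x ∈ Lv A e}
  zero_mem' := ⟨1, one_ne_zero, zero_mem _⟩
  one_mem' := ⟨1, one_ne_zero, one_mem _⟩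
  add_mem' := fun ⟨e, he, h⟩ ⟨e', he', h'⟩ => ⟨e * e', mul_ne_zero he he',
    add_mem (Lv_le (dvd_mul_right _ _) h) (Lv_le (dvd_mul_left _ _) h')⟩
  neg_mem' := fun ⟨e, he, h⟩ => ⟨e, he, neg_mem h⟩
  mul_mem' := fun ⟨e, he, h⟩ ⟨e', he', h'⟩ => ⟨e * e', mul_ne_zero he he',
    mul_mem (Lv_le (dvd_mul_right _ _) h) (Lv_le (dvd_mul_left _ _) h')⟩

theorem single_mem_Pu (q : ℚ) (a : A) : single q a ∈ Pu A :=
  ⟨q.den, q.den_nz, single_mem_Sp (S := lv q.den) ⟨q.num, q.mul_den_eq_num⟩ a⟩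

theorem single_mem_O (h : 0 ≤ q) (a : A) : single q a ∈ O A := single_mem_Sp h a

theorem pu_mem_Lv (he : e ≠ 0) (f : A⟦X⟧) : pu A e he f ∈ Lv A e := fun _ h =>
  (coeff_pu_ne he h).elim fun n hn =>
    ⟨n, by rw [hn, div_mul_cancel₀ _ (Nat.cast_ne_zero.2 he), Int.cast_natCast]⟩

theorem pu_mem_Pu (he : e ≠ 0) (f : A⟦X⟧) : pu A e he f ∈ Pu A := ⟨e, he, pu_mem_Lv he f⟩

theorem pu_mem_O (he : e ≠ 0) (f : A⟦X⟧) : pu A e he f ∈ O A := fun _ h =>
  (coeff_pu_ne he h).elim fun n hn => hn ▸ (by positivity : (0 : ℚ) ≤ n / e)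

theorem map_mem_Sp {S : AddSubmonoid ℚ} {M : Type*} [FunLike M A B] [ZeroHomClass M A B] (φ : M)
    (h : x ∈ Sp A S) : x.map φ ∈ Sp B S := fun q hq =>
  h q fun h1 => hq (by rw [HahnSeries.map_coeff, h1, map_zero])

theorem hm_mem_O (f : A →+* B) (h : x ∈ O A) : hm f x ∈ O B := map_mem_Sp f h

theorem hm_mem_Pu (f : A →+* B) (h : x ∈ Pu A) : hm f x ∈ Pu B :=
  h.imp fun _ h1 => ⟨h1.1, map_mem_Sp f h1.2⟩

theorem mem_O_of_hm {f : A →+* B} (hf : Function.Injective f) (h : hm f x ∈ O B) : x ∈ O A :=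
  fun q hq => h q fun h1 => hq (hf (h1.trans (map_zero f).symm))

theorem exists_pu (he : e ≠ 0) (h : x ∈ Lv A e) (h0 : x ∈ O A) : ∃ f, pu A e he f = x := by
  refine ⟨PowerSeries.mk fun n => x.coeff (n / e), pu_eq he (fun n => by simp) fun q hq => ?_⟩
  obtain ⟨n, hn⟩ := h q hq
  have h1 : (0 : ℚ) ≤ n := hn ▸ mul_nonneg (h0 q hq) (Nat.cast_nonneg _)
  lift n to ℕ using Int.cast_nonneg_iff.1 h1
  exact ⟨n, by rw [eq_div_iff (Nat.cast_ne_zero.2 he), hn, Int.cast_natCast]⟩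

theorem exists_lv {T : Set (Hn A)} (hT : T.Finite) (h : ∀ x ∈ T, x ∈ Pu A) :
    ∃ e, e ≠ 0 ∧ ∀ x ∈ T, x ∈ Lv A e := by
  lift T to Finset (Hn A) using hT
  choose! e h1 h2 using h
  exact ⟨∏ x ∈ T, e x, Finset.prod_ne_zero_iff.2 h1,
    fun x hx => Lv_le (Finset.dvd_prod_of_mem _ hx) (h2 x hx)⟩

/-- **the level lemma** -/
theorem lev {ι : Type*} [Finite ι] {x : ι → Hn A} (h : ∀ i, x i ∈ Pu A) (h0 : ∀ i, x i ∈ O A) :
    ∃ (e : ℕ) (he : e ≠ 0) (f : ι → A⟦X⟧), ∀ i, pu A e he (f i) = x i := by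
  obtain ⟨e, he, h1⟩ := exists_lv (Set.finite_range x) (Set.forall_mem_range.2 h)
  choose f hf using fun i => exists_pu he (h1 _ ⟨i, rfl⟩) (h0 i)
  exact ⟨e, he, f, hf⟩

theorem coeff_zero_mul (hx : x ∈ O A) (hy : y ∈ O A) : (x * y).coeff 0 = x.coeff 0 * y.coeff 0 := by
  rw [HahnSeries.coeff_mul]
  refine Finset.sum_eq_single (0, 0) (fun p hp h => (h ?_).elim) fun h => ?_
  · obtain ⟨h1, h2, h3⟩ := Finset.mem_antidiagonal.1 hp
    exact Prod.ext_iff.2 ((add_eq_zero_iff_of_nonneg (hx _ h1) (hy _ h2)).1 h3)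
  · by_contra h1
    exact h (Finset.mem_antidiagonal.2 ⟨left_ne_zero_of_mul h1, right_ne_zero_of_mul h1, add_zero _⟩)

variable (A) in
/-- the reduction -/
def rd : O A →+* A where
  toFun x := x.1.coeff 0
  map_one' := by simp
  map_mul' x y := coeff_zero_mul x.2 y.2
  map_zero' := rfl
  map_add' _ _ := rfl

theorem single_mul_mem_O : single q 1 * x ∈ O A ↔ ∀ p, x.coeff p ≠ 0 → -q ≤ p := by
  refine ⟨fun h p hp => neg_le_iff_add_nonneg.2 (h _ ?_), fun h p hp => ?_⟩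
  · rwa [HahnSeries.coeff_single_mul_add, one_mul]
  · rw [HahnSeries.coeff_single_mul, one_mul] at hp
    exact (by simpa using h _ hp : 0 ≤ p)

theorem coeff_zero_single_mul : (single q 1 * x).coeff 0 = x.coeff (-q) := by
  rw [HahnSeries.coeff_single_mul, one_mul, zero_sub]

/-- **normalisation** of a finite family -/
theorem exists_nrm {ι : Type*} [Finite ι] {x : ι → Hn A} (h : ∃ i, x i ≠ 0) :
    ∃ q : ℚ, (∀ i, single q 1 * x i ∈ O A) ∧ ∃ i, (single q 1 * x i).coeff 0 ≠ 0 := by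
  obtain ⟨i, hi, h1⟩ := Set.exists_min_image {i | x i ≠ 0} (fun i => (x i).order)
    (Set.toFinite _) h
  refine ⟨-(x i).order, fun j => single_mul_mem_O.2 fun p hp => ?_, i, ?_⟩
  · rw [neg_neg]
    exact (h1 j fun h2 => hp (by simp [h2])).trans (HahnSeries.order_le_of_coeff_ne_zero hp)
  · rwa [coeff_zero_single_mul, neg_neg, Ne, HahnSeries.coeff_order_eq_zero]

theorem exists_shift {T : Set (Hn A)} (hT : T.Finite) :
    ∃ n : ℕ, ∀ x ∈ T, single (n : ℚ) 1 * x ∈ O A := by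
  obtain ⟨b, hb⟩ := (hT.image HahnSeries.order).bddBelow
  obtain ⟨n, hn⟩ := exists_nat_ge (-b)
  exact ⟨n, fun x hx => single_mul_mem_O.2 fun p hp => ((neg_le.1 hn).trans
    (hb ⟨x, hx, rfl⟩)).trans (HahnSeries.order_le_of_coeff_ne_zero hp)⟩

theorem mem_Pu_iff : x ∈ Pu A ↔
    ∃ (e : ℕ) (he : e ≠ 0) (n : ℕ) (f : A⟦X⟧), single (n : ℚ) 1 * x = pu A e he f := by
  refine ⟨fun h => ?_, fun ⟨e, he, n, f, h⟩ => ?_⟩
  · obtain ⟨n, hn⟩ := exists_shift (Set.finite_singleton x)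
    obtain ⟨e, he, h1⟩ := mul_mem (single_mem_Pu (n : ℚ) (1 : A)) h
    obtain ⟨f, hf⟩ := exists_pu he h1 (hn x rfl)
    exact ⟨e, he, n, f, hf.symm⟩
  · have h1 := mul_mem (single_mem_Pu (-n : ℚ) (1 : A)) (h ▸ pu_mem_Pu he f)
    rwa [← mul_assoc, HahnSeries.single_mul_single, neg_add_cancel, one_mul,
      HahnSeries.single_zero_one, one_mul] at h1

end Ring

section Field

variable {K : Type*} [Field K] {x y : Hn K}

theorem tq_ne (q : ℚ) : (single q 1 : Hn K) ≠ 0 := HahnSeries.single_ne_zero one_ne_zero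

theorem order_inv (x : Hn K) : x⁻¹.order = -x.order := by
  rcases eq_or_ne x 0 with rfl | h
  · simp
  have h1 := HahnSeries.order_mul h (inv_ne_zero h)
  rw [mul_inv_cancel₀ h, HahnSeries.order_one] at h1
  exact eq_neg_of_add_eq_zero_right h1.symm

theorem mem_O_or_inv (x : Hn K) : x ∈ O K ∨ x⁻¹ ∈ O K := by
  rw [mem_O_iff, mem_O_iff, order_inv, neg_nonneg]
  exact le_total _ _

theorem inv_mem_O (h0 : x.coeff 0 ≠ 0) : x⁻¹ ∈ O K := by
  rw [mem_O_iff, order_inv, neg_nonneg]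
  exact HahnSeries.order_le_of_coeff_ne_zero h0

theorem coeff_zero_ne (h : x ≠ 0) (h1 : x ∈ O K) (h2 : x⁻¹ ∈ O K) : x.coeff 0 ≠ 0 := fun h3 => by
  simpa [h, h3] using coeff_zero_mul h1 h2

theorem inv_mem_Pu (h : x ∈ Pu K) : x⁻¹ ∈ Pu K := by
  rcases eq_or_ne x 0 with rfl | h0
  · simp
  obtain ⟨q, h1, -, h2⟩ := exists_nrm (x := fun _ : Unit => x) ⟨(), h0⟩
  obtain ⟨e, he, h3⟩ := mul_mem (single_mem_Pu q (1 : K)) h
  obtain ⟨f, hf⟩ := exists_pu he h3 (h1 ())
  rw [← hf, coeff_zero_pu] at h2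
  have h4 := congrArg (pu K e he) (PowerSeries.mul_inv_cancel f h2)
  rw [map_mul, map_one, hf, mul_right_comm] at h4
  rw [← eq_inv_of_mul_eq_one_left h4]
  exact mul_mem (single_mem_Pu _ _) (pu_mem_Pu he _)

variable (K) in
/-- the field of Puiseux series -/
def PuF : Subfield (Hn K) := { Pu K with inv_mem' := fun _ => inv_mem_Pu }

theorem mem_PuF : x ∈ PuF K ↔ x ∈ Pu K := Iff.rfl

open Polynomial in
/-- **Puiseux's theorem** -/
instance [IsAlgClosed K] [CharZero K] : IsAlgClosed (PuF K) := by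
  refine IsAlgClosed.of_exists_root _ fun p hp hi => ?_
  have hd : p.natDegree ≠ 0 := (natDegree_pos_iff_degree_pos.2 (degree_pos_of_irreducible hi)).ne'
  set p' := p.map (PuF K).subtype with hp'
  have hm : p'.Monic := hp.map _
  obtain ⟨n, hn⟩ := exists_shift p'.coeffs.finite_toSet
  set s : Hn K := single (n : ℚ) 1
  have hs : s ∈ O K := single_mem_O (Nat.cast_nonneg n) 1
  have h1 : ∀ i, (p'.scaleRoots s).coeff i ∈ Pu K := fun i => by
    rw [coeff_scaleRoots, hp', coeff_map]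
    exact mul_mem (p.coeff i).2 (pow_mem (single_mem_Pu _ _) _)
  have h2 : ∀ i, (p'.scaleRoots s).coeff i ∈ O K := fun i => by
    rw [coeff_scaleRoots]
    rcases lt_trichotomy i p'.natDegree with h | rfl | h
    · obtain ⟨k, hk⟩ := Nat.exists_eq_add_of_lt h
      by_cases h0 : p'.coeff i = 0
      · simp [h0]
      rw [show p'.natDegree - i = k + 1 by omega, pow_succ', ← mul_assoc, mul_comm _ s]
      exact mul_mem (hn _ (coeff_mem_coeffs h0)) (pow_mem hs _)
    · simp [hm.coeff_natDegree]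
    · simp [coeff_eq_zero_of_natDegree_lt h]
  obtain ⟨e, he, h3⟩ := exists_lv (p'.scaleRoots s).coeffs.finite_toSet fun x hx => by
    obtain ⟨i, -, rfl⟩ := mem_coeffs_iff.1 hx
    exact h1 i
  obtain ⟨g, g1, g2, g3⟩ := lifts_and_natDegree_eq_and_monic (f := pu K e he)
    ((lifts_iff_coeff_lifts _).2 fun i => by
      by_cases h0 : (p'.scaleRoots s).coeff i = 0
      · exact ⟨0, by rw [h0, map_zero]⟩
      · exact exists_pu he (h3 _ (coeff_mem_coeffs h0)) (h2 i)) ((monic_scaleRoots_iff s).2 hm)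
  obtain ⟨a, ha, h4⟩ := R013.Puis_702.puiseux_ps g g3
  obtain ⟨z, hz⟩ := h4.exists_eval_eq_zero (by
    rw [degree_eq_natDegree (g3.map _).ne_zero, g3.natDegree_map, g2, natDegree_scaleRoots,
      hp', hp.natDegree_map]
    exact_mod_cast hd)
  have h5 : (pu K (a * e) (mul_ne_zero ha he)).comp (R013.Puis_702.ex a ha) = pu K e he :=
    RingHom.ext fun f => pu_expand he ha f
  have h6 := congrArg (pu K (a * e) (mul_ne_zero ha he)) hz
  rw [← eval₂_hom, ← eval_map, map_map, h5, g1, map_zero,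
    ← mul_div_cancel₀ (pu K _ _ z) (tq_ne (n : ℚ)), scaleRoots_eval_mul] at h6
  refine ⟨⟨_, div_mem (pu_mem_Pu (mul_ne_zero ha he) z) (single_mem_Pu (n : ℚ) 1)⟩, ?_⟩
  refine (PuF K).subtype.injective ?_
  rw [← eval₂_hom, ← eval_map, map_zero]
  exact (mul_eq_zero.1 h6).resolve_left (pow_ne_zero _ (tq_ne _))

/-- the constants -/
def cst (K : Type*) [Field K] : K →+* PuF K :=
  (HahnSeries.C : K →+* Hn K).codRestrict (PuF K) fun a => single_mem_Pu 0 a

instance [CharZero K] : CharZero (PuF K) := (cst K).charZero_iff (cst K).injective |>.1 ‹_›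

open Cardinal in
theorem nonempty_kap : Nonempty (ℂ ≃+* PuF ℂ) := by
  refine IsAlgClosed.ringEquiv_of_equiv_of_charZero (by simp [aleph0_lt_continuum])
    (Cardinal.eq.1 (le_antisymm (mk_le_of_injective (cst ℂ).injective) ?_))
  have h : Function.Injective fun x : PuF ℂ => x.1.coeff := fun x y h =>
    Subtype.ext (HahnSeries.ext h)
  simpa using mk_le_of_injective h

/-- the complex numbers as Puiseux series -/
def kap : ℂ ≃+* PuF ℂ := nonempty_kap.some

end Field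

end Crest.Agent.X262.Pui27
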